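import Mathlib.Computability.Language
import Mathlib.Data.Fintype.Basic

namespace Vale.Agent.P329

/-- Generalized regular expressions over an alphabet. -/
inductive GRE (α : Type) : Type
  | zero : GRE α
  | one : GRE α
  | letter : α → GRE α
  | union : GRE α → GRE α → GRE α
  | concat : GRE α → GRE α → GRE α
  | compl : GRE α → GRE α
  | star : GRE α → GRE α

/-- Star height of a generalized regular expression. -/
def GRE.height {α : Type} : GRE α → ℕ
  | .zero => 0
  | .one => 0
  | .letter _ => 0
  | .union e f => max e.height f.height
  | .concat e f => max e.height f.height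
  | .compl e => e.height
  | .star e => e.height + 1

/-- The language denoted by a generalized regular expression;
complements are taken in the set of all words. -/
def GRE.lang {α : Type} : GRE α → Set (List α)
  | .zero => ∅
  | .one => {[]}
  | .letter a => {[a]}
  | .union e f => e.lang ∪ f.lang
  | .concat e f => {w | ∃ u ∈ e.lang, ∃ v ∈ f.lang, u ++ v = w}
  | .compl e => (e.lang)ᶜ
  | .star e => {w | ∃ L : List (List α), (∀ u ∈ L, u ∈ e.lang) ∧ L.flatten = w}

end Vale.Agent.P329
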