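import Vale.Agent.P329.Defs
import Mathlib.Algebra.Group.Subgroup.Defs
import Mathlib.Data.Nat.Prime.Defs

namespace Vale.Agent.P329

/-- The group `G` has an abelian subgroup `A` which contains all commutators and all `p`-th
powers, for some prime `p`. Equivalently: `A` is an abelian normal subgroup and `G / A` is an
elementary abelian `p`-group. -/
def AbelianByElementary (G : Type) [Group G] : Prop :=
  ∃ p : ℕ, p.Prime ∧ ∃ A : Subgroup G, (∀ a ∈ A, ∀ b ∈ A, a * b = b * a) ∧
    (∀ g h : G, g * h * g⁻¹ * h⁻¹ ∈ A) ∧ ∀ g : G, g ^ p ∈ A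

end Vale.Agent.P329
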